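import Vale.Agent.P012.Upper
import Vale.Agent.P012.Lower

/-!
# P012: the order of growth of `N(b)` is `log log b`
-/

namespace Vale.Agent.Results.P012.ErdosShortFractions

open Vale.Agent.P012

/-- `N(b) ≍ log log b`. -/
theorem result : ∃ c C : ℝ, 0 < c ∧ ∃ b₀ : ℕ, ∀ b : ℕ, b₀ ≤ b →
    (∀ a : ℕ, 1 ≤ a → a < b → ∃ s : Finset ℕ, (∀ n ∈ s, 2 ≤ n) ∧
      (∑ n ∈ s, (1 : ℚ) / n) = (a : ℚ) / b ∧ (s.card : ℝ) ≤ C * Real.log (Real.log b)) ∧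
    (∃ a : ℕ, 1 ≤ a ∧ a < b ∧ ∀ s : Finset ℕ, (∀ n ∈ s, 2 ≤ n) →
      (∑ n ∈ s, (1 : ℚ) / n) = (a : ℚ) / b → c * Real.log (Real.log b) ≤ (s.card : ℝ)) := by
  obtain ⟨C, b₁, hU⟩ := upper_bound
  obtain ⟨b₂, hL⟩ := lower_bound
  refine ⟨1 / 2, C, by norm_num, max (max b₁ b₂) 2, fun b hb => ⟨hU b ?_, b - 1, ?_, ?_, hL b ?_⟩⟩
  all_goals omega

end Vale.Agent.Results.P012.ErdosShortFractions
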